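import Mathlib

/-!
# P022, block R: generators, evaluation of power series, limits along ultrafilters
-/

set_option linter.all false

noncomputable section

namespace Vale.Agent.P022D.R

open Filter Module

/-- generators of a quotient lift to generators -/
theorem gas {F V : Type} [Field F] [AddCommGroup V] [Module F V] [Module.Finite F V] {g : ℕ}
    (hg : finrank F V ≤ g) (N : Submodule F V) (y : Fin g → V)
    (hy : Submodule.span F (Set.range y) ⊔ N = ⊤) :
    ∃ n : Fin g → V, (∀ i, n i ∈ N) ∧ Submodule.span F (Set.range fun i => y i + n i) = ⊤ := by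
  classical
  let Y : (Fin g → F) →ₗ[F] V := Fintype.linearCombination F y
  have hY : LinearMap.range Y = Submodule.span F (Set.range y) :=
    Fintype.range_linearCombination F y
  have hs : LinearMap.range (N.mkQ ∘ₗ Y) = ⊤ := by
    rw [LinearMap.range_comp, hY, Submodule.map_mkQ_eq_top, sup_comm, hy]
  have h1 : finrank F N ≤ finrank F (LinearMap.ker (N.mkQ ∘ₗ Y)) := by
    have a := LinearMap.finrank_range_add_finrank_ker (N.mkQ ∘ₗ Y)
    rw [hs, finrank_top, finrank_fin_fun] at a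
    have b := Submodule.finrank_quotient_add_finrank N
    omega
  obtain ⟨j, hj⟩ := finrank_le_iff_exists_linearMap.1 h1
  obtain ⟨s, hsj⟩ := j.exists_leftInverse_of_injective (LinearMap.ker_eq_bot.2 hj)
  have hYN : ∀ c : LinearMap.ker (N.mkQ ∘ₗ Y), Y c ∈ N := fun c =>
    (Submodule.Quotient.mk_eq_zero N).1 c.2
  obtain ⟨δ, hδ⟩ := LinearMap.exists_extend
    (s - LinearMap.codRestrict N (Y ∘ₗ (LinearMap.ker (N.mkQ ∘ₗ Y)).subtype) hYN)
  refine ⟨fun i => δ (Pi.single i 1), fun i => (δ _).2, ?_⟩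
  have e : Fintype.linearCombination F (fun i => y i + (δ (Pi.single i 1) : V)) =
      Y + N.subtype ∘ₗ δ := by
    refine (Pi.basisFun F (Fin g)).ext fun i => ?_
    simp [Y, Fintype.linearCombination_apply_single]
  rw [← Fintype.range_linearCombination, e, eq_top_iff]
  have k : ∀ n : N, (n : V) ∈ LinearMap.range (Y + N.subtype ∘ₗ δ) := fun n => by
    refine ⟨(j n : Fin g → F), ?_⟩
    have h2 := LinearMap.congr_fun hδ (j n)
    have h3 := LinearMap.congr_fun hsj n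
    simp only [LinearMap.comp_apply, Submodule.subtype_apply, LinearMap.sub_apply,
      LinearMap.id_apply] at h2 h3
    rw [LinearMap.add_apply, LinearMap.comp_apply, h2, h3]
    exact add_sub_cancel _ _
  intro v _
  rw [← hy, ← hY] at *
  obtain ⟨a, ⟨c, rfl⟩, b, hb, rfl⟩ := Submodule.mem_sup.1 (show v ∈ _ from by assumption)
  have : Y c + b = (Y + N.subtype ∘ₗ δ) c + ((⟨b, hb⟩ - δ c : N) : V) := by simp
  rw [this]
  exact add_mem ⟨c, rfl⟩ (k _)

/-- Nakayama for subrings -/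
theorem sub_top {A : Type} [CommRing A] (m : Ideal A) {n : ℕ} (hn : m ^ n = ⊥) (B : Subring A)
    (h0 : ∀ a, ∃ b ∈ B, a - b ∈ m)
    (h : m ≤ Ideal.span ((B : Set A) ∩ m) ⊔ m ^ 2) (a : A) : a ∈ B := by
  have h1 : ∀ k, m ≤ Ideal.span ((B : Set A) ∩ m) ⊔ m ^ (k + 1) := fun k => by
    induction k with
    | zero => simp
    | succ k ih =>
      refine h.trans (sup_le le_sup_left ?_)
      rw [pow_two]
      refine (Ideal.mul_mono_right ih).trans ?_
      rw [Ideal.mul_sup, ← pow_succ']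
      exact sup_le_sup_right Ideal.mul_le_right _
  have h2 : m ≤ Ideal.span ((B : Set A) ∩ m) := by
    have := h1 n
    rwa [pow_succ, hn, Ideal.bot_mul, sup_bot_eq] at this
  have h3 : ∀ k, ∀ a, ∃ b ∈ B, a - b ∈ m ^ k := fun k => by
    induction k with
    | zero => exact fun a => ⟨0, B.zero_mem, by simp⟩
    | succ k ih =>
      have h4 : ∀ z ∈ Ideal.span ((B : Set A) ∩ m), ∀ c : A, ∃ b ∈ B, c * z - b ∈ m ^ (k + 1) := by
        intro z hz
        induction hz using Submodule.span_induction with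
        | mem z hz =>
          intro c
          obtain ⟨b, hb, e⟩ := ih c
          refine ⟨b * z, B.mul_mem hb hz.1, ?_⟩
          rw [← sub_mul, pow_succ]
          exact Ideal.mul_mem_mul e hz.2
        | zero => exact fun c => ⟨0, B.zero_mem, by simp⟩
        | add x y _ _ hx hy =>
          intro c
          obtain ⟨b, hb, e⟩ := hx c
          obtain ⟨b', hb', e'⟩ := hy c
          refine ⟨b + b', B.add_mem hb hb', ?_⟩
          have := add_mem e e'
          rwa [show c * x - b + (c * y - b') = c * (x + y) - (b + b') by ring] at this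
        | smul r x _ hx =>
          intro c
          rw [smul_eq_mul, ← mul_assoc]
          exact hx _
      intro a
      obtain ⟨b, hb, e⟩ := h0 a
      obtain ⟨b', hb', e'⟩ := h4 _ (h2 e) 1
      refine ⟨b + b', B.add_mem hb hb', ?_⟩
      rwa [one_mul, sub_sub] at e'
  obtain ⟨b, hb, e⟩ := h3 n a
  rw [hn, Ideal.mem_bot, sub_eq_zero] at e
  exact e ▸ hb

/-- the kernel of the residue map of a finite local ring is nilpotent -/
theorem ker_nil {A F : Type} [CommRing A] [Finite A] [Field F] (π : A →+* F)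
    (h : ∀ a, π a ≠ 0 → IsUnit a) : ∃ n, RingHom.ker π ^ n = ⊥ := by
  obtain ⟨n, hn⟩ := IsArtinianRing.isNilpotent_jacobson_bot (R := A)
  refine ⟨n, eq_bot_iff.2 ((Ideal.pow_right_mono ?_ n).trans hn.le)⟩
  intro a ha
  rw [Ideal.mem_jacobson_bot]
  intro y
  refine h _ ?_
  rw [map_add, map_mul, (RingHom.mem_ker).1 ha, zero_mul, zero_add, map_one]
  exact one_ne_zero

section ev

variable {O A B σ : Type} [CommRing O] [CommRing A] [CommRing B] [Finite σ]

/-- the monomials of degree at least `n` vanish -/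
def Van (ι : O →+* A) (v : σ → A) (n : ℕ) : Prop :=
  MvPolynomial.idealOfVars σ O ^ n ≤ RingHom.ker (MvPolynomial.eval₂Hom ι v)

theorem van_of_pow (ι : O →+* A) (v : σ → A) (m : Ideal A) {n : ℕ} (hn : m ^ n = ⊥)
    (hv : ∀ s, v s ∈ m) : Van ι v n := by
  have h1 : MvPolynomial.idealOfVars σ O ≤ m.comap (MvPolynomial.eval₂Hom ι v) := by
    refine Ideal.span_le.2 ?_
    rintro _ ⟨s, rfl⟩
    simpa using hv s
  refine (Ideal.pow_right_mono h1 n).trans ((Ideal.le_comap_pow _ n).trans ?_)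
  rw [hn]
  exact le_rfl

theorem Van.mono {ι : O →+* A} {v : σ → A} {n k : ℕ} (h : Van ι v n) (hk : n ≤ k) : Van ι v k :=
  (Ideal.pow_le_pow_right hk).trans h

theorem Van.map {ι : O →+* A} {v : σ → A} {n : ℕ} (h : Van ι v n) (u : A →+* B) :
    Van (u.comp ι) (fun s => u (v s)) n := fun p hp => by
  rw [RingHom.mem_ker, ← MvPolynomial.map_eval₂Hom, (RingHom.mem_ker).1 (h hp), map_zero]

open Classical in
/-- evaluation of a power series at nilpotent elements -/
def evl (ι : O →+* A) (v : σ → A) : MvPowerSeries σ O →+* A :=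
  if h : ∃ n, Van ι v n then
    (Ideal.Quotient.lift _ (MvPolynomial.eval₂Hom ι v) fun _ hp => h.choose_spec hp).comp
      (MvPowerSeries.truncTotalAlgHom σ O h.choose).toRingHom
  else ι.comp MvPowerSeries.constantCoeff

theorem evl_eq {ι : O →+* A} {v : σ → A} {n : ℕ} (h : Van ι v n) (f : MvPowerSeries σ O) :
    evl ι v f = MvPolynomial.eval₂Hom ι v (f.truncTotal n) := by
  have h' : ∃ n, Van ι v n := ⟨n, h⟩
  have e : evl ι v f = MvPolynomial.eval₂Hom ι v (f.truncTotal h'.choose) := by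
    rw [evl, dif_pos h']
    rfl
  rw [e, ← sub_eq_zero, ← map_sub]
  rcases le_total n h'.choose with k | k
  · exact h (MvPowerSeries.truncTotal_sub_truncTotal_mem_pow_idealOfVars k le_rfl f)
  · exact h'.choose_spec (MvPowerSeries.truncTotal_sub_truncTotal_mem_pow_idealOfVars le_rfl k f)

theorem evl_coe {ι : O →+* A} {v : σ → A} {n : ℕ} (h : Van ι v n) (p : MvPolynomial σ O) :
    evl ι v (p : MvPowerSeries σ O) = MvPolynomial.eval₂Hom ι v p := by
  rw [evl_eq (h.mono (le_max_left n (p.totalDegree + 1))),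
    (MvPowerSeries.truncTotal_coe_eq_self_iff p (by omega)).2 (by omega)]

theorem evl_C {ι : O →+* A} {v : σ → A} {n : ℕ} (h : Van ι v n) (c : O) :
    evl ι v (MvPowerSeries.C c) = ι c := by
  rw [← MvPolynomial.coe_C, evl_coe h, MvPolynomial.eval₂Hom_C]

theorem evl_X {ι : O →+* A} {v : σ → A} {n : ℕ} (h : Van ι v n) (s : σ) :
    evl ι v (MvPowerSeries.X s) = v s := by
  rw [← MvPolynomial.coe_X, evl_coe h, MvPolynomial.eval₂Hom_X']

theorem map_evl {ι : O →+* A} {v : σ → A} {n : ℕ} (h : Van ι v n) (u : A →+* B)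
    (f : MvPowerSeries σ O) : u (evl ι v f) = evl (u.comp ι) (fun s => u (v s)) f := by
  rw [evl_eq h, evl_eq (h.map u), MvPolynomial.map_eval₂Hom]

theorem evl_zero (ι : O →+* A) (f : MvPowerSeries σ O) :
    evl ι (fun _ : σ => 0) f = ι (MvPowerSeries.constantCoeff f) := by
  rw [evl_eq (van_of_pow ι _ ⊥ (pow_one _) fun _ => Ideal.mem_bot.2 rfl),
    MvPolynomial.eval₂Hom_zero'_apply, MvPowerSeries.constantCoeff_truncTotal_eq_ite,
    if_pos one_pos]

theorem evl_eq_zero {ι : O →+* A} {v : σ → A} {n : ℕ} (h : Van ι v n) {f : MvPowerSeries σ O}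
    (hf : ∀ d : σ →₀ ℕ, d.degree < n → ι (MvPowerSeries.coeff d f) = 0) : evl ι v f = 0 := by
  classical
  rw [evl_eq h, MvPolynomial.coe_eval₂Hom, MvPolynomial.eval₂_eq]
  refine Finset.sum_eq_zero fun d _ => ?_
  rw [MvPowerSeries.coeff_truncTotal_eq_ite]
  split_ifs with k
  · rw [hf d k, zero_mul]
  · rw [map_zero, zero_mul]

end ev

section lim

theorem ulim {ι A : Type} [CommRing A] (U : Ultrafilter ι) (x : ι → A) (I : Ideal A)
    [Finite (A ⧸ I)] : ∃ y, ∀ᶠ p in U, x p - y ∈ I := by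
  obtain ⟨c, hc⟩ := Ultrafilter.eq_pure_of_finite (U.map fun p => Ideal.Quotient.mk I (x p))
  obtain ⟨y, rfl⟩ := Ideal.Quotient.mk_surjective c
  have : {Ideal.Quotient.mk I y} ∈ U.map fun p => Ideal.Quotient.mk I (x p) := by
    rw [hc]; exact Ultrafilter.mem_pure.2 rfl
  have h2 : ∀ᶠ p in U, Ideal.Quotient.mk I (x p) = Ideal.Quotient.mk I y := this
  exact ⟨y, h2.mono fun p h => Ideal.Quotient.eq.1 h⟩

theorem ulim_adic {ι O : Type} [CommRing O] (U : Ultrafilter ι) (x : ι → O) (I : Ideal O)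
    [IsPrecomplete I O] (hI : ∀ k, Finite (O ⧸ I ^ k)) :
    ∃ y, ∀ k : ℕ, ∀ᶠ p in U, x p - y ∈ I ^ k := by
  choose g hg using fun k : ℕ => ulim U x (I ^ k)
  obtain ⟨l, hl⟩ := IsPrecomplete.prec (I := I) (M := O) inferInstance (f := g) fun {m n} hmn => by
    obtain ⟨i, h1, h2⟩ := ((hg m).and (hg n)).exists
    rw [SModEq.sub_mem, smul_eq_mul, Ideal.mul_top]
    have := sub_mem (Ideal.pow_le_pow_right hmn h2) h1
    simpa using this
  refine ⟨l, fun k => (hg k).mono fun n h => ?_⟩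
  have h1 := hl k
  rw [SModEq.sub_mem, smul_eq_mul, Ideal.mul_top] at h1
  simpa using add_mem h h1

theorem ulim_ser {ι O σ : Type} [CommRing O] [Finite σ] (U : Ultrafilter ι)
    (x : ι → MvPowerSeries σ O) (I : Ideal O) [IsPrecomplete I O] (hI : ∀ k, Finite (O ⧸ I ^ k)) :
    ∃ y : MvPowerSeries σ O, ∀ k : ℕ, ∀ᶠ p in U, ∀ d : σ →₀ ℕ, d.degree < k →
      MvPowerSeries.coeff d (x p - y) ∈ I ^ k := by
  choose y hy using fun d : σ →₀ ℕ => ulim_adic U (fun p => MvPowerSeries.coeff d (x p)) I hI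
  refine ⟨y, fun k => ?_⟩
  have := (eventually_all_finite (l := (U : Filter ι)) (Finsupp.finite_of_degree_lt (σ := σ) k)
    (p := fun d p => MvPowerSeries.coeff d (x p) - y d ∈ I ^ k)).2 fun d _ => hy d k
  exact this.mono fun p h d hd => h d hd

theorem exists_ultra {α : Type} [Preorder α] [Nonempty α] (h : ∀ a b : α, ∃ c, c ≤ a ∧ c ≤ b) :
    ∃ U : Ultrafilter α, ∀ a : α, ∀ᶠ p in (U : Filter α), p ≤ a := by
  have : IsCodirectedOrder α := ⟨h⟩
  exact ⟨Ultrafilter.of atBot, fun a => Ultrafilter.of_le _ (eventually_le_atBot a)⟩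

/-- compatible solutions exist -/
theorem pro {W : Type} [CommRing W] {g : ℕ} (S1 S0 : Set (Ideal W))
    (G : Ideal W → (Fin g → W) → Prop) (hfin : ∀ I ∈ S1, Finite (W ⧸ I))
    (h1 : ∀ I ∈ S1, ∀ J ∈ S1, I ⊓ J ∈ S1) (h0 : ∀ I ∈ S0, ∀ J ∈ S0, I ⊓ J ∈ S0)
    (h10 : ∀ J ∈ S0, ∃ I ∈ S1, I ≤ J) (hne : S0.Nonempty)
    (hG : ∀ I ∈ S1, ∀ J ∈ S1, I ≤ J → ∀ x x', G I x → (∀ i, x i - x' i ∈ J) → G J x')
    (y : Ideal W → Fin g → W) (hy : ∀ I ∈ S0, ∀ J ∈ S0, I ≤ J → ∀ i, y I i - y J i ∈ J)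
    (step : ∀ I ∈ S1, ∀ J ∈ S0, I ≤ J → ∃ x, G I x ∧ ∀ i, x i - y J i ∈ J) :
    ∃ x : Ideal W → Fin g → W, (∀ I ∈ S1, G I (x I)) ∧
      (∀ I ∈ S1, ∀ J ∈ S1, I ≤ J → ∀ i, x I i - x J i ∈ J) ∧
      ∀ J ∈ S0, J ∈ S1 → ∀ i, x J i - y J i ∈ J := by
  classical
  let ι := {p : Ideal W × Ideal W // p.1 ∈ S1 ∧ p.2 ∈ S0 ∧ p.1 ≤ p.2}
  obtain ⟨J0, hJ0⟩ := hne
  obtain ⟨I0, hI0, h00⟩ := h10 J0 hJ0
  have : Nonempty ι := ⟨⟨(I0, J0), hI0, hJ0, h00⟩⟩
  obtain ⟨U, hU⟩ := exists_ultra (α := ι) fun a b =>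
    ⟨⟨(a.1.1 ⊓ b.1.1, a.1.2 ⊓ b.1.2), h1 _ a.2.1 _ b.2.1, h0 _ a.2.2.1 _ b.2.2.1,
      inf_le_inf a.2.2.2 b.2.2.2⟩, And.intro inf_le_left inf_le_left,
      And.intro inf_le_right inf_le_right⟩
  choose z hz hz' using fun p : ι => step _ p.2.1 _ p.2.2.1 p.2.2.2
  have k : ∀ (I : Ideal W) (i : Fin g), ∃ w, I ∈ S1 → ∀ᶠ p in U, z p i - w ∈ I := fun I i => by
    by_cases h : I ∈ S1
    · have := hfin I h
      obtain ⟨w, hw⟩ := ulim U (fun p => z p i) I
      exact ⟨w, fun _ => hw⟩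
    · exact ⟨0, fun h' => absurd h' h⟩
  choose x hx using k
  refine ⟨x, fun I hI => ?_, fun I hI J hJ hIJ i => ?_, fun J hJ hJ' i => ?_⟩
  · obtain ⟨p, a, b⟩ := ((hU ⟨(I ⊓ I0, J0), h1 _ hI _ hI0, hJ0, inf_le_right.trans h00⟩).and
      (eventually_all.2 fun i => hx I i hI)).exists
    exact hG _ p.2.1 _ hI (le_trans a.1 inf_le_left) _ _ (hz p) b
  · obtain ⟨p, a, b⟩ := ((hx I i hI).and (hx J i hJ)).exists
    simpa using sub_mem b (hIJ a)
  · obtain ⟨p, a, b⟩ := ((hU ⟨(J, J), hJ', hJ, le_rfl⟩).and (hx J i hJ')).exists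
    have c : p.1.2 ≤ J := a.2
    simpa using sub_mem (add_mem (c (hz' p i)) (hy _ p.2.2.1 _ hJ c i)) b

end lim

end Vale.Agent.P022D.R
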