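import Vale.Agent.P022D.R.Obj
import Vale.Agent.P022D.NR.Tan

/-!
# P022, block R: the bound on the derivations
-/

set_option linter.all false

noncomputable section

namespace Vale.Agent.P022D.R

open NumberField Matrix TrivSqZeroExt
open Vale.Agent.P022 Vale.Agent.P022.C
open Vale.Agent.P027M.S (Inert mx)
open Vale.Agent.P022D.Sel (M2 Tan TanP)

variable {O F : Type} [CommRing O] [Field F] {S : Dat O F}

/-- the first order part of a matrix over the dual numbers -/
def sm (N : M2 (DualNumber F)) : M2 F := N.map snd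

theorem sm_mul (N N' : M2 (DualNumber F)) :
    sm (N * N') = N.map fst * sm N' + sm N * N'.map fst := by
  ext i j
  simp only [sm, map_apply, mul_apply, Fin.sum_univ_two, snd_add, DualNumber.snd_mul,
    Matrix.add_apply]
  ring

theorem sm_one : sm (1 : M2 (DualNumber F)) = 0 := by
  ext i j
  rw [sm, map_apply, one_apply]
  split_ifs <;> rfl

theorem sm_inl (N : M2 F) : sm (N.map inl) = 0 := rfl

theorem rb_mul (g h : GQ) : mx S.rb (g * h) = mx S.rb g * mx S.rb h := by
  simp only [mx, map_mul, Units.val_mul]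

theorem rb_inv (g : GQ) : mx S.rb g * mx S.rb g⁻¹ = 1 := by
  rw [← rb_mul, mul_inv_cancel]
  simp only [mx, map_one, Units.val_one]

theorem rb_inv' (g : GQ) : mx S.rb g⁻¹ * mx S.rb g = 1 := mul_eq_one_comm.1 (rb_inv g)

section dual

variable (Y : Obj S (DualNumber F)) (hπ : ∀ a, Y.π a = a.fst)
include hπ

theorem fst_ρ (g : GQ) : (Y.ρ g).map fst = mx S.rb g := by
  rw [← Y.res g]
  ext i j
  exact (hπ _).symm

theorem fst_α (l : ℕ) : (Y.α l).map fst = 1 := by
  rw [← Y.one l]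
  ext i j
  exact (hπ _).symm

theorem triv {g : GQ} (hg : Y.ρ g = 1) (b : M2 F) :
    sm (Y.ρ g) * mx S.rb g⁻¹ + (b - mx S.rb g * b * mx S.rb g⁻¹) = 0 := by
  have h1 : mx S.rb g = 1 := by rw [← Y.res g, hg, map_one']
  have h2 : mx S.rb g⁻¹ = 1 := by rw [← rb_inv (S := S) g, h1, one_mul]
  rw [hg, sm_one, h1, h2]
  simp

theorem tanP {D : ℕ → Set GQ} {Q : Finset ℕ} (hU : Unr Y Q)
    (hl : ∀ l ∈ S.T, ∀ g ∈ D l, Y.β l * Y.ρ g * Y.α l = (mx S.rb g).map inl) (b : M2 F) :
    TanP S.rb S.T Q D (fun g => sm (Y.ρ g) * mx S.rb g⁻¹ + (b - mx S.rb g * b * mx S.rb g⁻¹))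
      (fun l => if l ∈ S.T then sm (Y.α l) + b else 0) where
  coc g h := by
    rw [map_mul, sm_mul, fst_ρ Y hπ, fst_ρ Y hπ, _root_.mul_inv_rev, rb_mul, rb_mul]
    have e := rb_inv (S := S) h
    have e2 : sm (Y.ρ g) * mx S.rb h * (mx S.rb h⁻¹ * mx S.rb g⁻¹) =
        sm (Y.ρ g) * mx S.rb g⁻¹ := by
      rw [mul_assoc, ← mul_assoc (mx S.rb h), e, one_mul]
    rw [add_mul, e2]
    noncomm_ring
  opn := ⟨Y.ρ.toHomUnits.ker, by rw [ker_set]; exact Y.opn,
    fun σ hσ => triv Y hπ (Units.ext_iff.1 hσ) b⟩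
  unr l a c d P e f g k := triv Y hπ (hU l a c d P e f g k) b
  loc l h g k := by
    have e : Y.ρ g * Y.α l = Y.α l * (mx S.rb g).map inl := by
      rw [← hl l h g k, ← mul_assoc, ← mul_assoc, Y.inv, one_mul]
    have e1 := congrArg sm e
    have e2 : ((mx S.rb g).map inl : M2 (DualNumber F)).map fst = mx S.rb g := rfl
    rw [sm_mul, sm_mul, fst_ρ Y hπ, fst_α Y hπ, sm_inl, e2, mul_one, mul_zero, zero_add] at e1
    have e3 : sm (Y.ρ g) = sm (Y.α l) * mx S.rb g - mx S.rb g * sm (Y.α l) := by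
      rw [← e1]; abel
    rw [if_pos h, e3, sub_mul, mul_assoc (sm (Y.α l)), rb_inv, mul_one]
    noncomm_ring
  zero l h := if_neg h

theorem inj (hι : ∀ c, Y.ι c = inl (S.red c)) (b : M2 F)
    (h1 : ∀ g, sm (Y.ρ g) * mx S.rb g⁻¹ + (b - mx S.rb g * b * mx S.rb g⁻¹) = 0)
    (h2 : ∀ l ∈ S.T, sm (Y.α l) + b = 0) : b = 0 ∧ ∀ v, sm (Y.mat v) = 0 := by
  have k : ∀ g, sm (Y.ρ g) + (b * mx S.rb g - mx S.rb g * b) = 0 := fun g => by
    have := congrArg (· * mx S.rb g) (h1 g)
    simpa only [add_mul, sub_mul, mul_assoc, rb_inv', mul_one, zero_mul] using this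
  have k' : ∀ g i j, (Y.ρ g i j).snd + ((b i 0 * mx S.rb g 0 j + b i 1 * mx S.rb g 1 j) -
      (mx S.rb g i 0 * b 0 j + mx S.rb g i 1 * b 1 j)) = 0 := fun g i j => by
    have := congrFun (congrFun (k g) i) j
    simpa only [Matrix.add_apply, Matrix.sub_apply, mul_apply, Fin.sum_univ_two, sm, map_apply,
      Matrix.zero_apply] using this
  have a1 := k' S.g0 0 1
  have a2 := k' S.g0 1 0
  have a3 := k' S.g1 0 1
  have a4 : (Y.α S.l0 0 0).snd + b 0 0 = 0 := congrFun (congrFun (h2 _ S.hl0) 0) 0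
  rw [Y.dg.1, S.d01, snd_zero] at a1
  rw [Y.dg.2, S.d10, snd_zero] at a2
  rw [Y.nm, hι, snd_inl] at a3
  rw [Y.fr, snd_one, zero_add] at a4
  have b01 : b 0 1 = 0 := (mul_eq_zero.1 (show b 0 1 * (mx S.rb S.g0 0 0 - mx S.rb S.g0 1 1) = 0
    by linear_combination -a1)).resolve_right (sub_ne_zero.2 S.dne)
  have b10 : b 1 0 = 0 := (mul_eq_zero.1 (show b 1 0 * (mx S.rb S.g0 0 0 - mx S.rb S.g0 1 1) = 0
    by linear_combination a2)).resolve_right (sub_ne_zero.2 S.dne)
  have b11 : b 1 1 = 0 := (mul_eq_zero.1 (show b 1 1 * mx S.rb S.g1 0 1 = 0 by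
    rw [b01, a4] at a3; linear_combination -a3)).resolve_right S.n01
  have hb : b = 0 := by
    ext i j
    fin_cases i <;> fin_cases j
    exacts [a4, b01, b10, b11]
  have hα : ∀ l, sm (Y.α l) = 0 := fun l => by
    by_cases h : l ∈ S.T
    · rw [← h2 l h, hb, add_zero]
    · rw [Y.off l h, sm_one]
  refine ⟨hb, fun v => ?_⟩
  rcases v with g | l | l
  · have := k g
    rwa [hb, zero_mul, mul_zero, sub_zero, add_zero] at this
  · exact hα l
  · have := congrArg sm (Y.inv l)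
    rwa [sm_mul, sm_one, hα, fst_α Y hπ, one_mul, zero_mul, add_zero] at this

end dual

/-- the point over the dual numbers given by a derivation -/
def dual {J : Ideal (W O)} {δ : W O → F} (h : NR.Der MvPolynomial.C (πW S) J δ) :
    W O →+* DualNumber F where
  toFun w := inl (πW S w) + inr (δ w)
  map_one' := by
    have : δ 1 = 0 := map_one (MvPolynomial.C : O →+* W O) ▸ h.cst 1
    rw [this, map_one, inr_zero, add_zero, inl_one]
  map_mul' a b := by
    ext
    · simp
    · simp [h.mul, mul_comm]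
  map_zero' := by rw [h.kil 0 J.zero_mem, map_zero, inr_zero, add_zero, inl_zero]
  map_add' a b := by
    ext
    · simp
    · simp [h.add]

theorem der_rank {τ : Type} {D : ℕ → Set GQ} {g : ℕ} {C : Cl S} {κ : Crd S τ} {Q : Finset ℕ}
    (hC : Closed C) (hL : Loc D C κ) (hT : Tan S.rb S.T Q D (g + 4)) {I J : Ideal (W O)}
    (Z : Obj S (W O ⧸ I)) (hZ : ∀ w, Z.ev w = Ideal.Quotient.mk I w) (hc : Ty C Q _ Z)
    (hIJ : I ≤ J) (k : τ → W O) (hk : ∀ i, Ideal.Quotient.mk I (k i) = κ _ Z i)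
    (hkJ : ∀ i, k i ∈ J) (M : Submodule F (W O → F))
    (hM : ∀ δ ∈ M, NR.Der MvPolynomial.C (πW S) J δ) : Module.rank F M ≤ g := by
  classical
  have hπ : ∀ w, Z.π (Ideal.Quotient.mk I w) = πW S w := fun w => by rw [← hZ, π_ev]
  have := Z.finF
  have ex : ∀ δ : M, ∃ Y : Obj S (DualNumber F), (∀ a, Y.π a = a.fst) ∧
      (∀ c, Y.ι c = inl (S.red c)) ∧ Unr Y Q ∧
      (∀ l ∈ S.T, ∀ g ∈ D l, Y.β l * Y.ρ g * Y.α l = (mx S.rb g).map inl) ∧
      ∀ v i j, sm (Y.mat v) i j = δ.1 (MvPolynomial.X (v, i, j)) := fun δ => by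
    have h := hM δ.1 δ.2
    let u : W O ⧸ I →+* DualNumber F := Ideal.Quotient.lift I (dual h) fun w hw => by
      change inl (πW S w) + inr (δ.1 w) = 0
      rw [h.kil w (hIJ hw), ← hπ, Ideal.Quotient.eq_zero_iff_mem.2 hw, map_zero, inl_zero,
        inr_zero, add_zero]
    have hu : ∀ w, u (Ideal.Quotient.mk I w) = inl (πW S w) + inr (δ.1 w) := fun _ => rfl
    let Y := Z.map u (fstHom F F F).toRingHom (inferInstanceAs (Finite (F × F)))
      (fun b hb => isUnit_iff_isUnit_fst.2 (IsUnit.mk0 _ hb)) (fun a => by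
        obtain ⟨w, rfl⟩ := Ideal.Quotient.mk_surjective a
        rw [hu, hπ]
        simp)
    have hY : Hom Z Y u := hom_map ..
    have hι : ∀ c, Y.ι c = inl (S.red c) := fun c => by
      rw [← hY.ι, ← ev_C, hZ, hu, h.cst, πW_C, inr_zero, add_zero]
    have hc' := (hC.ty Q).push _ _ Z Y u hY hc
    refine ⟨Y, fun _ => rfl, hι, hc'.2, hL.tan Y (fun _ => rfl) hι hc'.1 fun i => ?_,
      fun v i j => ?_⟩
    · rw [← hL.nat _ _ Z Y u hY hc.1, ← hk, hu, h.kil _ (hkJ i), ← hπ, hk, hL.res _ Z hc.1,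
        inl_zero, inr_zero, add_zero]
    · rw [sm, map_apply, ← ev_X, ← hY.ev, hZ, hu]
      simp
  choose Y h1 h2 h3 h4 h5 using ex
  let m : (GQ ⊕ ℕ ⊕ ℕ) → M →ₗ[F] M2 F := fun v =>
    { toFun := fun δ => Matrix.of fun i j => δ.1 (MvPolynomial.X (v, i, j))
      map_add' := fun _ _ => rfl
      map_smul' := fun _ _ => rfl }
  have hm : ∀ v δ, m v δ = sm ((Y δ).mat v) := fun v δ => Matrix.ext fun i j => (h5 δ v i j).symm
  let Θ : (M × M2 F) →ₗ[F] (GQ → M2 F) × (ℕ → M2 F) :=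
    { toFun := fun p => (fun g => m (.inl g) p.1 * mx S.rb g⁻¹ +
        (p.2 - mx S.rb g * p.2 * mx S.rb g⁻¹),
        fun l => if l ∈ S.T then m (.inr (.inl l)) p.1 + p.2 else 0)
      map_add' := fun p q => by
        refine Prod.ext (funext fun g => ?_) (funext fun l => ?_)
        · simp only [Prod.fst_add, Prod.snd_add, map_add, Pi.add_apply]
          noncomm_ring
        · simp only [Prod.fst_add, Prod.snd_add, map_add, Pi.add_apply]
          split_ifs
          · abel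
          · rw [add_zero]
      map_smul' := fun c p => by
        refine Prod.ext (funext fun g => ?_) (funext fun l => ?_)
        · simp only [Prod.smul_fst, Prod.smul_snd, map_smul, Pi.smul_apply, RingHom.id_apply,
            smul_add, smul_sub, Matrix.smul_mul, Matrix.mul_smul]
        · simp only [Prod.smul_fst, Prod.smul_snd, map_smul, Pi.smul_apply, RingHom.id_apply]
          split_ifs
          · rw [smul_add]
          · rw [smul_zero] }
  have hΘ : Function.Injective Θ := by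
    rw [injective_iff_map_eq_zero]
    rintro ⟨δ, b⟩ h
    obtain ⟨e1, e2⟩ := inj (Y δ) (h1 δ) (h2 δ) b
      (fun g => by
        have := congrFun (congrArg Prod.fst h) g
        exact (congrArg (fun N => N * mx S.rb g⁻¹ + (b - mx S.rb g * b * mx S.rb g⁻¹))
          (hm (.inl g) δ).symm).trans this)
      (fun l hl => by
        have : (if l ∈ S.T then m (.inr (.inl l)) δ + b else 0) = 0 :=
          congrFun (congrArg Prod.snd h) l
        rw [if_pos hl, hm] at this
        exact this)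
    refine Prod.ext (Subtype.ext (funext fun w => ?_)) e1
    have hd := hM δ.1 δ.2
    change δ.1 w = 0
    induction w using MvPolynomial.induction_on with
    | C c => exact hd.cst c
    | add p q hp hq => rw [hd.add, hp, hq, add_zero]
    | mul_X p v hp =>
      obtain ⟨v, i, j⟩ := v
      rw [hd.mul, hp, ← h5, e2, mul_zero, add_zero, Matrix.zero_apply, mul_zero]
  have hr := hT (LinearMap.range Θ) (by
    rintro _ ⟨⟨δ, b⟩, rfl⟩
    have := tanP (Y δ) (h1 δ) (h3 δ) (h4 δ) b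
    have e1 : (Θ (δ, b)).1 = fun g => sm ((Y δ).ρ g) * mx S.rb g⁻¹ +
        (b - mx S.rb g * b * mx S.rb g⁻¹) := funext fun g =>
      congrArg (fun N => N * mx S.rb g⁻¹ + (b - mx S.rb g * b * mx S.rb g⁻¹)) (hm (.inl g) δ)
    have e2 : (Θ (δ, b)).2 = fun l => if l ∈ S.T then sm ((Y δ).α l) + b else 0 :=
      funext fun l => congrArg (fun N => if l ∈ S.T then N + b else 0) (hm (.inr (.inl l)) δ)
    rw [e1, e2]
    exact this)
  rw [rank_range_of_injective Θ hΘ, rank_prod', rank_matrix'] at hr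
  have e : Cardinal.lift.{0} (Cardinal.mk (Fin 2) * Cardinal.mk (Fin 2)) = ((4 : ℕ) : Cardinal) := by
    simp
    norm_num
  rw [e, Nat.cast_add] at hr
  exact (Cardinal.add_nat_le_add_nat_iff 4).1 hr

end Vale.Agent.P022D.R
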